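import Vale.Agent.N229.Defs
import Vale.Agent.P229.H870.Order
import Vale.Agent.P229.H870.Gram

/-!
# P229: the space of metrics is completely metrizable
-/

open scoped ContDiff RealInnerProductSpace Topology
open Set Metric Filter

namespace Vale.Agent.N229

open Vale.Agent.P229 Vale.Agent.P229.H870

/-! ## limits of smooth functions -/

theorem smooth_lim {ι : Type*} {l : Filter ι} [l.NeBot] {f : ι → E2 → ℝ}
    (hf : ∀ a, ContDiff ℝ ∞ (f a)) {t : ∀ j : ℕ, C(E2, E2 [×j]→L[ℝ] ℝ)}
    (h : ∀ j, TendstoLocallyUniformly (fun a => iteratedFDeriv ℝ j (f a)) (t j) l) :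
    ContDiff ℝ ∞ (fun x => t 0 x 0) ∧ ∀ j x, iteratedFDeriv ℝ j (fun x => t 0 x 0) x = t j x := by
  have h1 : HasFTaylorSeriesUpTo ∞ (fun x => t 0 x 0) (fun x j => t j x) := by
    refine ⟨fun x => rfl, fun m _ x => ?_, fun m _ => (t m).continuous⟩
    let L := continuousMultilinearCurryLeftEquiv ℝ (fun _ : Fin (m + 1) => E2) ℝ
    have h2 : TendstoLocallyUniformlyOn (fun a => L ∘ iteratedFDeriv ℝ (m + 1) (f a))
        (L ∘ t (m + 1)) l univ :=
      L.isometry.uniformContinuous.comp_tendstoLocallyUniformlyOn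
        (tendstoLocallyUniformlyOn_univ.2 (h (m + 1)))
    refine hasFDerivAt_of_tendstoLocallyUniformlyOn isOpen_univ h2 (fun a y _ => ?_)
      (fun y _ => (tendstoLocallyUniformlyOn_univ.2 (h m)).tendsto_at (mem_univ y)) (mem_univ x)
    rw [← fderiv_iteratedFDeriv]
    exact ((hf a).differentiable_iteratedFDeriv
      (by exact_mod_cast ENat.natCast_lt_top m)).differentiableAt.hasFDerivAt
  exact ⟨h1.contDiff, fun j x => (h1.eq_iteratedFDeriv (by exact_mod_cast le_top) x).symm⟩

/-! ## convergence of jets -/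

section Jets

variable {ι : Type*} {l : Filter ι} {p : E2}

/-- the jets of order less than `n` at `p` tend to zero -/
def Sm (l : Filter ι) (p : E2) : ℕ → (ι → SF) → Prop
  | 0, _ => True
  | n + 1, w => Tendsto (fun a => (w a).1 p) l (𝓝 0) ∧ ∀ k, Sm l p n fun a => dl k (w a)

theorem Sm.pred {n : ℕ} {w : ι → SF} (h : Sm l p (n + 1) w) : Sm l p n w := by
  induction n generalizing w with
  | zero => trivial
  | succ n ih => exact ⟨h.1, fun k => ih (h.2 k)⟩

theorem Sm.add {n : ℕ} {w w' : ι → SF} (h : Sm l p n w) (h' : Sm l p n w') :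
    Sm l p n fun a => w a + w' a := by
  induction n generalizing w w' with
  | zero => trivial
  | succ n ih =>
    refine ⟨by simpa using h.1.add h'.1, fun k => ?_⟩
    simp only [map_add]
    exact ih (h.2 k) (h'.2 k)

theorem Sm.mul_const {n : ℕ} {w : ι → SF} (h : Sm l p n w) (v : SF) :
    Sm l p n fun a => w a * v := by
  induction n generalizing w v with
  | zero => trivial
  | succ n ih =>
    refine ⟨by simpa using h.1.mul_const (v.1 p), fun k => ?_⟩
    simp only [dl_mul]
    exact (ih (h.2 k) v).add (ih h.pred _)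

theorem Sm.mul {n : ℕ} {w w' : ι → SF} (h : Sm l p n w) (h' : Sm l p n w') :
    Sm l p n fun a => w a * w' a := by
  induction n generalizing w w' with
  | zero => trivial
  | succ n ih =>
    refine ⟨by simpa using h.1.mul h'.1, fun k => ?_⟩
    simp only [dl_mul]
    exact (ih (h.2 k) h'.pred).add (ih h.pred (h'.2 k))

/-- convergence of all jets at `p` -/
def Jc (l : Filter ι) (p : E2) (w : ι → SF) (v : SF) : Prop := ∀ n, Sm l p n fun a => w a - v

theorem Jc.add {w w' : ι → SF} {v v' : SF} (h : Jc l p w v) (h' : Jc l p w' v') :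
    Jc l p (fun a => w a + w' a) (v + v') := fun n => by
  have h1 : (fun a => w a + w' a - (v + v')) = fun a => (w a - v) + (w' a - v') :=
    funext fun a => by ring
  rw [h1]
  exact (h n).add (h' n)

theorem Jc.mul {w w' : ι → SF} {v v' : SF} (h : Jc l p w v) (h' : Jc l p w' v') :
    Jc l p (fun a => w a * w' a) (v * v') := fun n => by
  have h1 : (fun a => w a * w' a - v * v') = fun a =>
      (w a - v) * (w' a - v') + ((w a - v) * v' + (w' a - v') * v) := funext fun a => by ring
  rw [h1]
  exact ((h n).mul (h' n)).add (((h n).mul_const v').add ((h' n).mul_const v))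

theorem Jc.const_mul {w : ι → SF} {v : SF} (c : SF) (h : Jc l p w v) :
    Jc l p (fun a => c * w a) (c * v) := fun n => by
  have h1 : (fun a => c * w a - c * v) = fun a => (w a - v) * c := funext fun a => by ring
  rw [h1]
  exact (h n).mul_const c

theorem Jc.sub {w w' : ι → SF} {v v' : SF} (h : Jc l p w v) (h' : Jc l p w' v') :
    Jc l p (fun a => w a - w' a) (v - v') := by
  have h1 := h.add (h'.const_mul (-1))
  have h2 : ∀ x y : SF, x + -1 * y = x - y := fun x y => by ring
  simpa only [h2] using h1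

theorem Jc.dl {w : ι → SF} {v : SF} (h : Jc l p w v) (k : Fin 2) :
    Jc l p (fun a => dl k (w a)) (dl k v) := fun n => by
  have h1 := (h (n + 1)).2 k
  simpa only [map_sub] using h1

theorem Jc.num {G : ι → Fin 2 → Fin 2 → SF} {H : Fin 2 → Fin 2 → SF}
    (h : ∀ i k, Jc l p (fun a => G a i k) (H i k)) : Jc l p (fun a => num (G a)) (num H) := by
  have hg : ∀ k m j, Jc l p (fun a => gam (G a) k m j) (gam H k m j) := fun k m j =>
    (((h m j).dl k).add ((h k j).dl m)).sub ((h k m).dl j)
  have hd : Jc l p (fun a => dt (G a)) (dt H) := ((h 0 0).mul (h 1 1)).sub ((h 0 1).mul (h 1 0))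
  have hl : Jc l p (fun a => lop (G a)) (lop H) :=
    (((((h 0 1).dl 1).dl 0).const_mul 2).sub (((h 1 1).dl 0).dl 0)).sub (((h 0 0).dl 1).dl 1)
  have hq : Jc l p (fun a => qop (G a)) (qop H) :=
    ((((h 1 1).mul (((hg 0 1 0).mul (hg 0 1 0)).sub ((hg 0 0 0).mul (hg 1 1 0)))).sub
      ((h 0 1).mul (((hg 0 1 0).mul (hg 0 1 1)).sub ((hg 0 0 0).mul (hg 1 1 1))))).sub
      ((h 1 0).mul (((hg 0 1 1).mul (hg 0 1 0)).sub ((hg 0 0 1).mul (hg 1 1 0))))).add
      ((h 0 0).mul (((hg 0 1 1).mul (hg 0 1 1)).sub ((hg 0 0 1).mul (hg 1 1 1))))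
  exact ((hd.const_mul 2).mul hl).add hq

theorem vo_of_sm [l.NeBot] {n : ℕ} {w : ι → SF} {v : SF} (h : Sm l p n fun a => w a - v)
    (hw : ∀ a, Vo p n (w a)) : Vo p n v := by
  induction n generalizing w v with
  | zero => trivial
  | succ n ih =>
    refine ⟨?_, fun k => ih (w := fun a => dl k (w a)) ?_ fun a => (hw a).2 k⟩
    · have h1 : (fun a => (w a - v).1 p) = fun _ => -v.1 p := funext fun a => by
        change (w a).1 p - v.1 p = _
        rw [(hw a).1, zero_sub]
      have h2 := h.1
      rw [h1] at h2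
      exact neg_eq_zero.1 (tendsto_const_nhds_iff.1 h2)
    · simpa only [map_sub] using h.2 k

theorem sm_of_iter {n : ℕ} {w : ι → SF}
    (h : ∀ j < n, Tendsto (fun a => ‖iteratedFDeriv ℝ j (w a).1 p‖) l (𝓝 0)) : Sm l p n w := by
  induction n generalizing w with
  | zero => trivial
  | succ n ih =>
    refine ⟨?_, fun k => ih fun j hj => ?_⟩
    · have h1 := h 0 (Nat.succ_pos n)
      simp only [norm_iteratedFDeriv_zero] at h1
      exact tendsto_zero_iff_norm_tendsto_zero.2 h1
    · have h2 := (h (j + 1) (by omega)).const_mul ‖ContinuousLinearMap.apply ℝ ℝ (e k)‖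
      rw [mul_zero] at h2
      refine squeeze_zero (fun _ => norm_nonneg _) (fun a => ?_) h2
      have h1 : ContDiffAt ℝ ∞ (fderiv ℝ (w a).1) p :=
        ((sm (w a)).fderiv_right (by simp)).contDiffAt
      have h3 := (ContinuousLinearMap.apply ℝ ℝ (e k)).norm_iteratedFDeriv_comp_left
        h1 (n := j) (by exact_mod_cast le_top)
      rwa [norm_iteratedFDeriv_fderiv] at h3

end Jets

/-- the coefficients of a smooth metric on the plane -/
def co {g : E2 → Matrix (Fin 2) (Fin 2) ℝ} (hg : IsMetricOn ∞ g univ) (i k : Fin 2) : SF :=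
  ⟨fun x => g x i k, contDiffOn_univ.1 (hg.contDiffOn i k)⟩

theorem dt_ne {g : E2 → Matrix (Fin 2) (Fin 2) ℝ} (hg : IsMetricOn ∞ g univ) (x : E2) :
    (dt (co hg)).1 x ≠ 0 := by
  have h1 := (hg.posDef x (mem_univ x)).det_pos
  rw [Matrix.det_fin_two] at h1
  exact h1.ne'

theorem curvature_co {g : E2 → Matrix (Fin 2) (Fin 2) ℝ} (hg : IsMetricOn ∞ g univ) (x : E2) :
    curvature g x = (num (co hg)).1 x / (4 * (dt (co hg)).1 x ^ 2) :=
  (curvature_eq isOpen_univ hg (mem_univ x) (G := co hg)
    fun _ _ => EventuallyEq.rfl).eq_of_nhds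

/-- the curvature is flat at a point if and only if its numerator is -/
theorem flat_iff {g : E2 → Matrix (Fin 2) (Fin 2) ℝ} (hg : IsMetricOn ∞ g univ) (p : E2) :
    (∀ j : ℕ, iteratedFDeriv ℝ j (curvature g) p = 0) ↔ ∀ n, Vo p n (num (co hg)) := by
  have h1 : ContDiff ℝ ∞ (curvature g) := by
    rw [funext (curvature_co hg)]
    exact (sm _).div (contDiff_const.mul ((sm _).pow 2)) fun x => by
      have := dt_ne hg x
      positivity
  let κ : SF := ⟨curvature g, h1⟩
  have h2 : num (co hg) = (4 * dt (co hg) ^ 2) * κ := by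
    ext x
    change _ = (4 * (dt (co hg)).1 x ^ 2) * curvature g x
    rw [curvature_co hg]
    have := dt_ne hg x
    field_simp
  rw [h2]
  refine ⟨fun h n => (vo_of_iter (u := κ) fun j _ => h j).mul_left _, fun h j => ?_⟩
  refine iter_of_vo (u := κ) (Vo.cancel ?_ (h (j + 1))) (Nat.lt_succ_self j)
  change 4 * (dt (co hg)).1 p ^ 2 ≠ 0
  have := dt_ne hg p
  positivity

/-! ## the topology -/

/-- the topology of locally uniform convergence of all derivatives -/
@[reducible] noncomputable def top (F : Set E2) : TopologicalSpace (Met F) :=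
  .induced (jet F) inferInstance

attribute [local instance] top

variable {F : Set E2}

theorem inducing_jet : Topology.IsInducing (jet F) := ⟨rfl⟩

theorem continuous_jet (j : ℕ) (i k : Fin 2) : Continuous fun g : Met F => jet F g j i k :=
  (continuous_apply k).comp ((continuous_apply i).comp
    ((continuous_apply j).comp inducing_jet.continuous))

theorem continuous_val (i k : Fin 2) : Continuous fun z : Met F × E2 => z.1.1 z.2 i k := by
  have h1 : Continuous fun z : Met F × E2 => jet F z.1 0 i k z.2 :=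
    ((continuous_jet 0 i k).comp continuous_fst).eval continuous_snd
  exact h1.eval_const 0

/-- the inverse of the determinant -/
noncomputable def idet (g : Met F) : C(E2, ℝ) :=
  ⟨fun x => ((dt (co g.2.1)).1 x)⁻¹, (sm _).continuous.inv₀ (dt_ne g.2.1)⟩

theorem continuous_idet : Continuous (idet : Met F → C(E2, ℝ)) := by
  refine ContinuousMap.continuous_of_continuous_uncurry _ ?_
  exact (((continuous_val 0 0).mul (continuous_val 1 1)).sub
    ((continuous_val 0 1).mul (continuous_val 1 0))).inv₀ fun z => dt_ne z.1.2.1 z.2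

theorem closedEmbedding : Topology.IsClosedEmbedding fun g : Met F => (jet F g, idet g) := by
  have hc : Continuous fun g : Met F => (jet F g, idet g) :=
    inducing_jet.continuous.prodMk continuous_idet
  refine ⟨⟨Topology.IsInducing.of_comp hc continuous_fst inducing_jet, fun g g' h => ?_⟩, ?_⟩
  · refine Subtype.ext (funext fun x => Matrix.ext fun i k => ?_)
    exact congrArg (fun z => z.1 0 i k x 0) h
  · refine isClosed_of_closure_subset fun z hz => ?_
    let l : Filter (Met F) := comap (fun g : Met F => (jet F g, idet g)) (𝓝 z)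
    have : l.NeBot := by
      rw [mem_closure_iff_nhdsWithin_neBot, nhdsWithin, ← image_univ, image_univ] at hz
      exact comap_neBot fun t ht => by
        obtain ⟨y, hy, g, rfl⟩ := hz.nonempty_of_mem (inter_mem_inf ht (mem_principal_self _))
        exact ⟨g, hy⟩
    have hl : Tendsto (fun g : Met F => (jet F g, idet g)) l (𝓝 z) := tendsto_comap
    have h1 : ∀ j i k, Tendsto (fun g : Met F => jet F g j i k) l (𝓝 (z.1 j i k)) := fun j i k =>
      tendsto_pi_nhds.1 (tendsto_pi_nhds.1 (tendsto_pi_nhds.1 hl.fst_nhds j) i) k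
    have h2 := fun i k => smooth_lim (l := l) (f := fun (g : Met F) x => g.1 x i k)
      (fun g => sm (co g.2.1 i k)) (t := fun j => z.1 j i k)
      fun j => ContinuousMap.tendsto_iff_tendstoLocallyUniformly.1 (h1 j i k)
    let g : E2 → Matrix (Fin 2) (Fin 2) ℝ := fun x => Matrix.of fun i k => z.1 0 i k x 0
    have h3 : ∀ j i k x, Tendsto (fun a : Met F => iteratedFDeriv ℝ j (fun y => a.1 y i k) x) l
        (𝓝 (iteratedFDeriv ℝ j (fun y => g y i k) x)) := fun j i k x => by
      have h4 := ((continuous_eval_const x).tendsto _).comp (h1 j i k)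
      rw [← (h2 i k).2 j x] at h4
      exact h4
    have h4 : ∀ x i k, Tendsto (fun a : Met F => a.1 x i k) l (𝓝 (g x i k)) := fun x i k =>
      ((continuous_eval_const (0 : Fin 0 → E2)).tendsto _).comp (h3 0 i k x)
    have h5 : ∀ x, (g x 0 0 * g x 1 1 - g x 0 1 * g x 1 0) * z.2 x = 1 := fun x => by
      have h6 := (((h4 x 0 0).mul (h4 x 1 1)).sub ((h4 x 0 1).mul (h4 x 1 0))).mul
        (((continuous_eval_const x).tendsto _).comp hl.snd_nhds)
      refine tendsto_nhds_unique h6 (tendsto_const_nhds.congr fun a => ?_)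
      exact (mul_inv_cancel₀ (dt_ne a.2.1 x)).symm
    have hg : IsMetricOn ∞ g univ := by
      refine ⟨fun i k => (h2 i k).1.contDiffOn, fun x _ => ?_⟩
      have h6 : (g x).PosSemidef := by
        refine Matrix.PosSemidef.of_dotProduct_mulVec_nonneg ?_ fun v => ?_
        · ext i k
          refine tendsto_nhds_unique (h4 x k i) ((h4 x i k).congr fun a => ?_)
          exact ((a.2.1.posDef x (mem_univ x)).isHermitian.apply i k).symm
        · rw [dot_expand]
          refine ge_of_tendsto (((((h4 x 0 0).const_mul _).add ((h4 x 0 1).const_mul _)).add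
            ((h4 x 1 0).const_mul _)).add ((h4 x 1 1).const_mul _))
            (Eventually.of_forall fun a => ?_)
          rw [← dot_expand]
          exact (a.2.1.posDef x (mem_univ x)).posSemidef.dotProduct_mulVec_nonneg v
      rw [h6.posDef_iff_det_ne_zero, Matrix.det_fin_two]
      exact left_ne_zero_of_mul_eq_one (h5 x)
    refine ⟨⟨g, hg, fun p hp => (flat_iff hg p).2 fun n => ?_⟩, Prod.ext ?_ ?_⟩
    · refine vo_of_sm (l := l) (w := fun a : Met F => num (co a.2.1))
        (Jc.num (G := fun a : Met F => co a.2.1) (fun i k n => sm_of_iter fun j _ => ?_) n)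
        fun a => (flat_iff a.2.1 p).1 (a.2.2 p hp) n
      refine (tendsto_iff_norm_sub_tendsto_zero.1 (h3 j i k p)).congr fun a => ?_
      exact congrArg norm (iteratedFDeriv_sub_apply (i := j) (x := p) ((sm (co a.2.1 i k)).of_le
        (by exact_mod_cast le_top)).contDiffAt
        ((sm (co hg i k)).of_le (by exact_mod_cast le_top)).contDiffAt).symm
    · funext j i k
      ext1 x
      exact (h2 i k).2 j x
    · ext1 x
      exact (eq_inv_of_mul_eq_one_right (h5 x)).symm

theorem complete_cm (V : Type) [NormedAddCommGroup V] [CompleteSpace V] :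
    TopologicalSpace.IsCompletelyMetrizableSpace C(E2, V) :=
  TopologicalSpace.IsCompletelyMetrizableSpace.of_completeSpace_metrizable

theorem complete : TopologicalSpace.IsCompletelyMetrizableSpace (Met F) := by
  have h1 := fun j : ℕ => complete_cm (E2 [×j]→L[ℝ] ℝ)
  have h2 := complete_cm ℝ
  exact closedEmbedding.IsCompletelyMetrizableSpace

end Vale.Agent.N229
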