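import Vale.Agent.P229.H870.Curv

/-!
# P229: the space of smooth metrics whose curvature vanishes to infinite order on a set
-/

open scoped ContDiff

namespace Vale.Agent.N229

open Vale.Agent.P229 Vale.Agent.P229.H870

/-- The smooth metrics on the plane whose Gaussian curvature vanishes, with all its derivatives, at
all points of `F`. -/
def Met (F : Set E2) : Type :=
  {g : E2 → Matrix (Fin 2) (Fin 2) ℝ // IsMetricOn ∞ g Set.univ ∧
    ∀ p ∈ F, ∀ j : ℕ, iteratedFDeriv ℝ j (curvature g) p = 0}

/-- The derivative of order `j` of the coefficient `g i k`, as a continuous map on the plane. -/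
noncomputable def jet (F : Set E2) (g : Met F) (j : ℕ) (i k : Fin 2) : C(E2, E2 [×j]→L[ℝ] ℝ) :=
  ⟨iteratedFDeriv ℝ j fun x => g.1 x i k,
    (contDiffOn_univ.1 (g.2.1.contDiffOn i k)).continuous_iteratedFDeriv
      (WithTop.coe_le_coe.2 le_top)⟩

end Vale.Agent.N229
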