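import Vale.Agent.P229.Defs

/-!
# P229: limits of maps with bounded derivatives
-/

open scoped ContDiff RealInnerProductSpace Topology
open Set Metric Filter

namespace Vale.Agent.N229

open Vale.Agent.P229

variable {ι : Type*} {u : Ultrafilter ι}

/-- pointwise limits of bounded families exist along an ultrafilter -/
theorem exists_lim {X V : Type*} [NormedAddCommGroup V] [ProperSpace V] {f : ι → X → V}
    {U : Set X} {M : ℝ} (h : ∀ᶠ a in u, ∀ x ∈ U, ‖f a x‖ ≤ M) :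
    ∃ g : X → V, ∀ x ∈ U, Tendsto (fun a => f a x) u (𝓝 (g x)) := by
  have h1 : ∀ x ∈ U, ∃ y : V, Tendsto (fun a => f a x) u (𝓝 y) := fun x hx => by
    have h2 : (↑(u.map fun a => f a x) : Filter V) ≤ 𝓟 (closedBall 0 M) := by
      rw [le_principal_iff, Ultrafilter.coe_map, Filter.mem_map]
      filter_upwards [h] with a ha
      exact mem_closedBall_zero_iff.2 (ha x hx)
    obtain ⟨y, -, hy⟩ := (isCompact_closedBall (0 : V) M).ultrafilter_le_nhds _ h2
    exact ⟨y, hy⟩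
  choose! g hg using h1
  exact ⟨g, hg⟩

section

variable {E V : Type*} [NormedAddCommGroup E] [NormedSpace ℝ E] [NormedAddCommGroup V]
  [NormedSpace ℝ V] {U : Set E}

theorem lip_of_bound (hU : IsOpen U) (hc : Convex ℝ U) {f : E → V} (hf : ContDiffOn ℝ 1 f U)
    {M : ℝ} (hM : ∀ x ∈ U, ‖iteratedFDeriv ℝ 1 f x‖ ≤ M) {x y : E} (hx : x ∈ U) (hy : y ∈ U) :
    ‖f y - f x‖ ≤ M * ‖y - x‖ :=
  hc.norm_image_sub_le_of_norm_fderiv_le
    (fun z hz => (hf.contDiffAt (hU.mem_nhds hz)).differentiableAt (by simp))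
    (fun z hz => by rw [← norm_iteratedFDeriv_one]; exact hM z hz) hx hy

theorem taylor_of_bound (hU : IsOpen U) (hc : Convex ℝ U) {f : E → V} (hf : ContDiffOn ℝ 2 f U)
    {M : ℝ} (hM : ∀ x ∈ U, ‖iteratedFDeriv ℝ 2 f x‖ ≤ M) {x y : E} (hx : x ∈ U) (hy : y ∈ U) :
    ‖f y - f x - fderiv ℝ f x (y - x)‖ ≤ M * ‖y - x‖ * ‖y - x‖ := by
  have hM0 : 0 ≤ M := (norm_nonneg _).trans (hM x hx)
  have h1 : ContDiffOn ℝ 1 (fderiv ℝ f) U := hf.fderiv_of_isOpen hU (by norm_num)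
  refine Convex.norm_image_sub_le_of_norm_fderiv_le' (s := U ∩ closedBall x ‖y - x‖)
    (fun z hz => (hf.contDiffAt (hU.mem_nhds hz.1)).differentiableAt (by simp))
    (fun z hz => ?_) (hc.inter (convex_closedBall _ _)) ⟨hx, mem_closedBall_self (norm_nonneg _)⟩
    ⟨hy, by rw [mem_closedBall, dist_eq_norm]⟩
  refine (lip_of_bound hU hc h1 (M := M) (fun z hz => ?_) hx hz.1).trans ?_
  · rw [norm_iteratedFDeriv_fderiv]
    exact hM z hz
  · refine mul_le_mul_of_nonneg_left ?_ hM0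
    have := hz.2
    rwa [mem_closedBall, dist_eq_norm] at this

theorem hasFDerivAt_lim (hU : IsOpen U) (hc : Convex ℝ U) {f : ι → E → V} {M : ℝ}
    (h : ∀ᶠ a in u, ContDiffOn ℝ 2 (f a) U ∧ ∀ x ∈ U, ‖iteratedFDeriv ℝ 2 (f a) x‖ ≤ M)
    {g : E → V} {g' : E → E →L[ℝ] V} (hg : ∀ x ∈ U, Tendsto (fun a => f a x) u (𝓝 (g x)))
    (hg' : ∀ x ∈ U, Tendsto (fun a => fderiv ℝ (f a) x) u (𝓝 (g' x))) {x : E} (hx : x ∈ U) :
    HasFDerivAt g (g' x) x := by
  have h1 : ∀ y ∈ U, ‖g y - g x - g' x (y - x)‖ ≤ M * ‖y - x‖ * ‖y - x‖ := fun y hy => by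
    have h2 : Tendsto (fun a => fderiv ℝ (f a) x (y - x)) u (𝓝 (g' x (y - x))) :=
      ((ContinuousLinearMap.apply ℝ V (y - x)).continuous.tendsto _).comp (hg' x hx)
    refine le_of_tendsto (((hg y hy).sub (hg x hx)).sub h2).norm ?_
    filter_upwards [h] with a ha
    exact taylor_of_bound hU hc ha.1 ha.2 hx hy
  rw [hasFDerivAt_iff_isLittleO, Asymptotics.isLittleO_iff]
  intro c hc0
  have h3 : Tendsto (fun y => M * ‖y - x‖) (𝓝 x) (𝓝 (M * ‖x - x‖)) :=
    (continuous_const.mul (continuous_id.sub continuous_const).norm).tendsto x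
  rw [sub_self, norm_zero, mul_zero] at h3
  filter_upwards [hU.mem_nhds hx, h3.eventually (gt_mem_nhds hc0)] with y hy hy'
  exact (h1 y hy).trans (mul_le_mul_of_nonneg_right hy'.le (norm_nonneg _))

end

/-- **limits of families with bounded derivatives** -/
theorem contDiffOn_lim {E : Type} [NormedAddCommGroup E] [NormedSpace ℝ E] [FiniteDimensional ℝ E]
    {U : Set E} (hU : IsOpen U) (hc : Convex ℝ U) {M : ℝ} (n : ℕ) :
    ∀ {V : Type} [NormedAddCommGroup V] [NormedSpace ℝ V] [FiniteDimensional ℝ V]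
      {f : ι → E → V}, (∀ᶠ a in u, ContDiffOn ℝ (n + 1 : ℕ) (f a) U ∧
        ∀ j, 1 ≤ j → j ≤ n + 1 → ∀ x ∈ U, ‖iteratedFDeriv ℝ j (f a) x‖ ≤ M) →
      ∀ {g : E → V}, (∀ x ∈ U, Tendsto (fun a => f a x) u (𝓝 (g x))) → ContDiffOn ℝ n g U ∧
        (1 ≤ n → ∀ x ∈ U, Tendsto (fun a => fderiv ℝ (f a) x) u (𝓝 (fderiv ℝ g x))) := by
  induction n with
  | zero =>
    intro V _ _ _ f h g hg
    refine ⟨?_, fun h0 => absurd h0 (by norm_num)⟩
    rw [Nat.cast_zero, contDiffOn_zero]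
    have h1 : LipschitzOnWith (Real.toNNReal M) g U := by
      refine LipschitzOnWith.of_dist_le' fun x hx y hy => ?_
      rw [dist_eq_norm, dist_eq_norm]
      refine le_of_tendsto ((hg x hx).sub (hg y hy)).norm ?_
      filter_upwards [h] with a ha
      exact lip_of_bound hU hc (by simpa using ha.1) (ha.2 1 le_rfl le_rfl) hy hx
    exact h1.continuousOn
  | succ n ih =>
    intro V _ _ _ f h g hg
    have : ProperSpace (E →L[ℝ] V) := FiniteDimensional.proper_real _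
    obtain ⟨g', hg'⟩ := exists_lim (u := u) (f := fun a => fderiv ℝ (f a)) (U := U) (M := M) (by
      filter_upwards [h] with a ha x hx
      rw [← norm_iteratedFDeriv_one]
      exact ha.2 1 le_rfl (by omega) x hx)
    have h1 := (ih (f := fun a => fderiv ℝ (f a)) (by
      filter_upwards [h] with a ha
      refine ⟨ha.1.fderiv_of_isOpen hU (by push_cast; rfl), fun j _ hj x hx => ?_⟩
      rw [norm_iteratedFDeriv_fderiv]
      exact ha.2 (j + 1) (by omega) (by omega) x hx) hg').1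
    have h2 : ∀ x ∈ U, HasFDerivAt g (g' x) x := fun x hx =>
      hasFDerivAt_lim hU hc (M := M) (by
        filter_upwards [h] with a ha
        exact ⟨ha.1.of_le (by exact_mod_cast (by omega : 2 ≤ n + 1 + 1)),
          ha.2 2 (by omega) (by omega)⟩) hg hg' hx
    refine ⟨?_, fun _ x hx => ?_⟩
    · rw [Nat.cast_succ, contDiffOn_succ_iff_fderiv_of_isOpen hU]
      exact ⟨fun x hx => (h2 x hx).differentiableAt.differentiableWithinAt, by simp,
        h1.congr fun x hx => (h2 x hx).fderiv⟩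
    · rw [(h2 x hx).fderiv]
      exact hg' x hx

/-- **a limit of the metrics induced by maps bounded in `C^5` has a `C^4` realization** -/
theorem realize_lim {q : E2} {ρ M : ℝ} {f : ι → E2 → E3} {g : E2 → Matrix (Fin 2) (Fin 2) ℝ}
    (h : ∀ᶠ a in u, ContDiffOn ℝ 5 (f a) (ball q ρ) ∧
      ∀ j, 1 ≤ j → j ≤ 5 → ∀ x ∈ ball q ρ, ‖iteratedFDeriv ℝ j (f a) x‖ ≤ M)
    (hg : ∀ x ∈ ball q ρ, ∀ i k : Fin 2, Tendsto (fun a =>
      ⟪fderiv ℝ (f a) x (EuclideanSpace.single i 1), fderiv ℝ (f a) x (EuclideanSpace.single k 1)⟫)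
      u (𝓝 (g x i k))) :
    ∃ Φ : E2 → E3, IsIsometricImmersionOn 4 g (ball q ρ) Φ := by
  rcases le_or_gt ρ 0 with hρ | hρ
  · rw [ball_eq_empty.2 hρ]
    exact ⟨fun _ => 0, contDiffOn_empty, fun x hx => absurd hx (notMem_empty x)⟩
  have hq : q ∈ ball q ρ := mem_ball_self hρ
  let f' : ι → E2 → E3 := fun a x => f a x - f a q
  have hd : ∀ a, fderiv ℝ (f' a) = fderiv ℝ (f a) := fun a => funext fun x => fderiv_sub_const _
  obtain ⟨Φ, hΦ⟩ := exists_lim (u := u) (f := f') (U := ball q ρ) (M := M * ρ) (by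
    filter_upwards [h] with a ha x hx
    have hM0 : 0 ≤ M := (norm_nonneg _).trans (ha.2 1 le_rfl (by norm_num) q hq)
    refine (lip_of_bound isOpen_ball (convex_ball q ρ) (ha.1.of_le (by norm_num))
      (ha.2 1 le_rfl (by norm_num)) hq hx).trans (mul_le_mul_of_nonneg_left ?_ hM0)
    rw [mem_ball, dist_eq_norm] at hx
    exact hx.le)
  obtain ⟨h1, h2⟩ := contDiffOn_lim (u := u) isOpen_ball (convex_ball q ρ) (M := M) 4 (f := f') (by
    filter_upwards [h] with a ha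
    refine ⟨ha.1.sub contDiffOn_const, fun j hj1 hj x hx => ?_⟩
    obtain ⟨j, rfl⟩ : ∃ i, j = i + 1 := ⟨j - 1, by omega⟩
    rw [← norm_iteratedFDeriv_fderiv, hd, norm_iteratedFDeriv_fderiv]
    exact ha.2 _ hj1 hj x hx) hΦ
  refine ⟨Φ, h1, fun x hx i k => tendsto_nhds_unique ?_ (hg x hx i k)⟩
  have h3 := h2 (by norm_num) x hx
  simp only [hd] at h3
  have h4 : ∀ v : E2, Tendsto (fun a => fderiv ℝ (f a) x v) u (𝓝 (fderiv ℝ Φ x v)) := fun v =>
    ((ContinuousLinearMap.apply ℝ E3 v).continuous.tendsto _).comp h3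
  exact (h4 _).inner (h4 _)

/-- **the obstruction is stable** -/
theorem robust {g : E2 → Matrix (Fin 2) (Fin 2) ℝ} {p : E2} (hg : ¬ LocallyRealizableAt 4 g p)
    {ρ : ℝ} (hρ : 0 < ρ) (M : ℝ) : ∃ η : ℝ, 0 < η ∧ ∀ Φ : E2 → E3, ContDiffOn ℝ 5 Φ (ball p ρ) →
      (∀ j, 1 ≤ j → j ≤ 5 → ∀ x ∈ ball p ρ, ‖iteratedFDeriv ℝ j Φ x‖ ≤ M) →
      ∃ x ∈ ball p ρ, ∃ i k : Fin 2, η < |⟪fderiv ℝ Φ x (EuclideanSpace.single i 1),
        fderiv ℝ Φ x (EuclideanSpace.single k 1)⟫ - g x i k| := by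
  by_contra hcon
  push Not at hcon
  choose f hf1 hf2 hf3 using fun n : ℕ => hcon (1 / ((n : ℝ) + 1)) Nat.one_div_pos_of_nat
  obtain ⟨Φ, hΦ⟩ := realize_lim (u := hyperfilter ℕ) (q := p) (ρ := ρ) (M := M) (f := f) (g := g)
    (Eventually.of_forall fun a => ⟨hf1 a, hf2 a⟩) (fun x hx i k => by
      refine Tendsto.mono_left ?_ (hyperfilter_le_cofinite.trans Nat.cofinite_eq_atTop.le)
      rw [tendsto_iff_norm_sub_tendsto_zero]
      exact squeeze_zero (fun _ => norm_nonneg _) (fun n => hf3 n x hx i k)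
        tendsto_one_div_add_atTop_nhds_zero_nat)
  exact hg ⟨ball p ρ, isOpen_ball, mem_ball_self hρ, Φ, hΦ⟩

end Vale.Agent.N229
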