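import Vale.Agent.N229.Flat
import Vale.Agent.N229.Lim
import Vale.Agent.P229.H870.Local

/-!
# P229: the metrics without local realization are generic
-/

open scoped ContDiff RealInnerProductSpace Topology
open Set Metric Filter

namespace Vale.Agent.N229

open Vale.Agent.P229 Vale.Agent.P229.H870
open Vale.Agent.P229.H832 (BadAt)

/-- cutting off a function near a point at which its jet vanishes -/
theorem cut_near {u : E2 → ℝ} (hu : ContDiff ℝ ∞ u) {q : E2} {m : ℕ}
    (h0 : ∀ j ≤ m, iteratedFDeriv ℝ j u q = 0) :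
    ∃ C : ℝ, 0 < C ∧ ∀ (p : E2) (r : ℝ), 0 < r → 3 * r ≤ 1 → dist p q ≤ 2 * r → ∀ j ≤ m, ∀ x : E2,
      ‖iteratedFDeriv ℝ j (fun y => chi p r y * u y) x‖ ≤ C * r := by
  obtain ⟨A, hA1, hA⟩ := chi_bound m
  obtain ⟨B, hB1, hB⟩ := vanish hu h0
  refine ⟨2 ^ m * (A * B * 3 ^ (m + 1)), by positivity, fun p r hr hr1 hpq j hj x => ?_⟩
  by_cases hx : x ∈ closedBall p r
  · refine (norm_iteratedFDeriv_mul_le (N := ∞) (chi_smooth p r) hu x (n := j)
      (by exact_mod_cast le_top)).trans ?_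
    have hxr : ‖x - q‖ ≤ 3 * r := by
      have h1 := dist_triangle x p q
      rw [mem_closedBall] at hx
      rw [← dist_eq_norm]
      linarith
    have h1 : ∀ i ∈ Finset.range (j + 1), (j.choose i : ℝ) * ‖iteratedFDeriv ℝ i (chi p r) x‖ *
        ‖iteratedFDeriv ℝ (j - i) u x‖ ≤ (j.choose i : ℝ) * (A * B * 3 ^ (m + 1) * r) := by
      intro i hi
      have hi' := Finset.mem_range.1 hi
      rw [mul_assoc]
      refine mul_le_mul_of_nonneg_left ?_ (Nat.cast_nonneg _)
      have h2 := hA p r hr i (by omega) x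
      have h3 := hB (j - i) (by omega) x (by
        rw [mem_closedBall, dist_eq_norm]
        linarith)
      have h4 : B * ‖x - q‖ ^ (m + 1 - (j - i)) ≤ B * (3 ^ (m + 1) * r ^ (i + 1)) := by
        refine mul_le_mul_of_nonneg_left ?_ (by linarith)
        refine (pow_le_pow_left₀ (norm_nonneg _) hxr _).trans ?_
        refine (pow_le_pow_of_le_one (by positivity) hr1 (show i + 1 ≤ _ by omega)).trans ?_
        rw [mul_pow]
        exact mul_le_mul_of_nonneg_right (pow_le_pow_right₀ (by norm_num) (by omega))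
          (by positivity)
      calc ‖iteratedFDeriv ℝ i (chi p r) x‖ * ‖iteratedFDeriv ℝ (j - i) u x‖
          ≤ (A * (r⁻¹) ^ i) * (B * (3 ^ (m + 1) * r ^ (i + 1))) :=
            mul_le_mul h2 (h3.trans h4) (norm_nonneg _) (by positivity)
        _ = A * B * 3 ^ (m + 1) * r * ((r⁻¹) ^ i * r ^ i) := by ring
        _ = A * B * 3 ^ (m + 1) * r := by
          rw [← mul_pow, inv_mul_cancel₀ hr.ne', one_pow, mul_one]
    refine (Finset.sum_le_sum h1).trans ?_
    rw [← Finset.sum_mul]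
    have h2 : (∑ i ∈ Finset.range (j + 1), (j.choose i : ℝ)) = 2 ^ j := by
      exact_mod_cast Nat.sum_range_choose j
    rw [h2]
    have h3 : (2 : ℝ) ^ j ≤ 2 ^ m := pow_le_pow_right₀ one_le_two hj
    calc (2 : ℝ) ^ j * (A * B * 3 ^ (m + 1) * r) ≤ 2 ^ m * (A * B * 3 ^ (m + 1) * r) :=
          mul_le_mul_of_nonneg_right h3 (by positivity)
      _ = 2 ^ m * (A * B * 3 ^ (m + 1)) * r := by ring
  · have h1 : (fun y => chi p r y * u y) =ᶠ[𝓝 x] fun _ => 0 := by
      filter_upwards [isClosed_closedBall.isOpen_compl.mem_nhds hx] with y hy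
      rw [chi_zero hr fun h => hy (ball_subset_closedBall h), zero_mul]
    rw [(h1.iteratedFDeriv ℝ j).eq_of_nhds, iteratedFDeriv_fun_zero]
    simp only [Pi.zero_apply, norm_zero]
    positivity

/-- making a metric flat on a small disc near a point at which it is flat to order `m` -/
theorem flatten {g : E2 → Matrix (Fin 2) (Fin 2) ℝ} (hg : IsMetricOn ∞ g univ) {q : E2} {m : ℕ}
    (hm : FlatToOrder m g q) {ε : ℝ} (hε : 0 < ε) :
    ∃ r₀ : ℝ, 0 < r₀ ∧ ∀ (p : E2) (r : ℝ), 0 < r → r ≤ r₀ → dist p q ≤ 2 * r →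
      ∃ g' : E2 → Matrix (Fin 2) (Fin 2) ℝ, IsMetricOn ∞ g' univ ∧ (∀ x ∉ ball p r, g' x = g x) ∧
        (∀ j ≤ m, ∀ (i k : Fin 2) (x : E2),
          ‖iteratedFDeriv ℝ j (fun y => g' y i k - g y i k) x‖ ≤ ε) ∧ FlatToOrder m g' p := by
  obtain ⟨ψ, hψ, hjet⟩ := hm
  have hp0 : ∀ i k, pb ψ i k q = g q i k := fun i k => by
    have h1 := hjet 0 (Nat.zero_le _) i k
    rw [← norm_eq_zero, norm_iteratedFDeriv_zero, norm_eq_zero, sub_eq_zero] at h1
    exact h1.symm
  obtain ⟨ρ, hρ, hρ1, -, hρinv, -⟩ := exists_chart hψ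
    (invertible_of_posDef (hg.posDef q (mem_univ q)) hp0) univ_mem
  have hv : ∀ i k, ContDiff ℝ ∞ fun x => g x i k - pb ψ i k x := fun i k =>
    (sm (co hg i k)).sub (pb_smooth hψ i k)
  choose C hC hC' using fun i k => cut_near (hv i k) fun j hj => hjet j hj i k
  obtain ⟨C₀, hC₀, hCC₀⟩ : ∃ C₀ : ℝ, 0 < C₀ ∧ ∀ i k, C i k ≤ C₀ := by
    refine ⟨C 0 0 + C 0 1 + C 1 0 + C 1 1, ?_, fun i k => ?_⟩
    · linarith [hC 0 0, hC 0 1, hC 1 0, hC 1 1]
    · fin_cases i <;> fin_cases k <;> simp <;> linarith [hC 0 0, hC 0 1, hC 1 0, hC 1 1]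
  refine ⟨min (ρ / 3) (ε / C₀), lt_min (by positivity) (by positivity),
    fun p r hr hr0 hpq => ?_⟩
  have hr1 : r ≤ ρ / 3 := hr0.trans (min_le_left _ _)
  have hr2 : r * C₀ ≤ ε := (le_div_iff₀ hC₀).1 (hr0.trans (min_le_right _ _))
  refine ⟨fun x => Matrix.of fun i k => g x i k - chi p r x * (g x i k - pb ψ i k x),
    ⟨fun i k => ((sm (co hg i k)).sub ((chi_smooth p r).mul (hv i k))).contDiffOn, fun x _ => ?_⟩,
    fun x hx => ?_, fun j hj i k x => ?_, ψ, hψ, fun j _ i k => ?_⟩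
  · have h1 : (Matrix.of fun i k => g x i k - chi p r x * (g x i k - pb ψ i k x)) =
        (1 - chi p r x) • g x + chi p r x • (Matrix.of fun i k => pb ψ i k x) := by
      ext i k
      change g x i k - chi p r x * (g x i k - pb ψ i k x) =
        (1 - chi p r x) * g x i k + chi p r x * pb ψ i k x
      ring
    rw [h1]
    rcases (chi_nonneg p r x).eq_or_lt with h4 | h4
    · rw [← h4]
      simpa using hg.posDef x (mem_univ x)
    · have hx : x ∈ ball p r := by
        by_contra hx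
        exact h4.ne' (chi_zero hr hx)
      have hx' : x ∈ ball q ρ := by
        have h2 := dist_triangle x p q
        rw [mem_ball] at hx ⊢
        linarith
      exact Matrix.PosDef.posSemidef_add ((hg.posDef x (mem_univ x)).posSemidef.smul
        (sub_nonneg.2 (chi_le_one p r x))) ((pb_posDef (hρinv x hx')).smul h4)
  · ext i k
    change g x i k - chi p r x * (g x i k - pb ψ i k x) = _
    rw [chi_zero hr hx, zero_mul, sub_zero]
  · have h1 : (fun y => (Matrix.of fun i k => g y i k - chi p r y * (g y i k - pb ψ i k y)) i k -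
        g y i k) = -fun y => chi p r y * (g y i k - pb ψ i k y) := funext fun y => by
      change g y i k - chi p r y * (g y i k - pb ψ i k y) - g y i k =
        -(chi p r y * (g y i k - pb ψ i k y))
      ring
    rw [h1, iteratedFDeriv_neg_apply, norm_neg]
    refine (hC' i k p r hr (by linarith) hpq j hj x).trans ?_
    have := mul_le_mul_of_nonneg_right (hCC₀ i k) hr.le
    linarith
  · have h1 : (fun x => (Matrix.of fun i k => g x i k - chi p r x * (g x i k - pb ψ i k x)) i k -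
        ⟪fderiv ℝ ψ x (EuclideanSpace.single i 1), fderiv ℝ ψ x (EuclideanSpace.single k 1)⟫)
        =ᶠ[𝓝 p] fun _ => 0 := by
      filter_upwards [closedBall_mem_nhds p (half_pos hr)] with x hx
      change g x i k - chi p r x * (g x i k - pb ψ i k x) - pb ψ i k x = 0
      rw [chi_one hr hx]
      ring
    rw [(h1.iteratedFDeriv ℝ j).eq_of_nhds, iteratedFDeriv_fun_zero]
    rfl

theorem curvature_congr {g g' : E2 → Matrix (Fin 2) (Fin 2) ℝ} {x : E2} (h : g =ᶠ[𝓝 x] g') :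
    curvature g =ᶠ[𝓝 x] curvature g' := by
  have h0 : ∀ i k, (fun y => g y i k) =ᶠ[𝓝 x] fun y => g' y i k := fun i k => by
    filter_upwards [h] with y hy
    rw [hy]
  have h1 : ∀ k l j, chr g k l j =ᶠ[𝓝 x] chr g' k l j := fun k l j => by
    filter_upwards [pd_congr (h0 l j) k, pd_congr (h0 k j) l, pd_congr (h0 k l) j] with y a b c
    rw [chr, chr, a, b, c]
  have h2 : ∀ᶠ y in 𝓝 x, ∀ k l j, chr g k l j y = chr g' k l j y :=
    eventually_all.2 fun k => eventually_all.2 fun l => eventually_all.2 fun j => h1 k l j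
  filter_upwards [h, h2, pd_congr (pd_congr (h0 0 1) 1) 0, pd_congr (pd_congr (h0 1 1) 0) 0,
    pd_congr (pd_congr (h0 0 0) 1) 1] with y a b c d f
  simp only [curvature, a, b, c, d, f]

/-- small discs off a closed set, near a boundary point -/
theorem exists_tangent {F : Set E2} (hF : IsClosed F) {q : E2} (hq : q ∈ frontier F) {ρ : ℝ}
    (hρ : 0 < ρ) : ∃ z ∈ F, ∀ r₀ : ℝ, 0 < r₀ → ∃ (p : E2) (r : ℝ), 0 < r ∧ r ≤ r₀ ∧
      dist p z ≤ 2 * r ∧ Disjoint (closedBall p r) F ∧ p ∈ ball q ρ := by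
  have hq1 : q ∈ closure Fᶜ := by
    rw [frontier_eq_closure_inter_closure] at hq
    exact hq.2
  have hq2 : q ∈ F := hF.frontier_subset hq
  obtain ⟨w, hw, hwq⟩ := Metric.mem_closure_iff.1 hq1 (ρ / 2) (half_pos hρ)
  obtain ⟨z, hz, hwz⟩ := hF.exists_infDist_eq_dist ⟨q, hq2⟩ w
  have hmin : ∀ y ∈ F, dist w z ≤ dist w y := fun y hy => hwz ▸ infDist_le_dist_of_mem hy
  have hd : 0 < dist w z := dist_pos.2 fun h => hw (h ▸ hz)
  refine ⟨z, hz, fun r₀ hr₀ => ?_⟩
  set t := min 1 (r₀ / dist w z) with ht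
  have ht0 : 0 < t := lt_min one_pos (by positivity)
  have ht1 : t ≤ 1 := min_le_left _ _
  have ht2 : t * dist w z ≤ r₀ := (le_div_iff₀ hd).1 (min_le_right _ _)
  have h1 : dist (z + t • (w - z)) z = t * dist w z := by
    rw [dist_eq_norm, add_sub_cancel_left, norm_smul, Real.norm_of_nonneg ht0.le, dist_eq_norm]
  have h2 : dist w (z + t • (w - z)) = (1 - t) * dist w z := by
    have h3 : w - (z + t • (w - z)) = (1 - t) • (w - z) := by module
    rw [dist_eq_norm, h3, norm_smul, Real.norm_of_nonneg (by linarith), dist_eq_norm]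
  have h0 : 0 < t * dist w z := by positivity
  refine ⟨z + t • (w - z), t * dist w z / 2, by positivity, by linarith, by linarith,
    Set.disjoint_left.2 fun y hy hyF => ?_, ?_⟩
  · have h3 := hmin y hyF
    have h4 := dist_triangle w (z + t • (w - z)) y
    rw [mem_closedBall, dist_comm] at hy
    linarith
  · have h3 := hmin q hq2
    have h4 := dist_triangle (z + t • (w - z)) w q
    rw [dist_comm _ w, h2] at h4
    rw [dist_comm] at hwq
    rw [mem_ball]
    linarith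

attribute [local instance] top

variable {F : Set E2} {φ₀ : E2 → ℝ} (hφ₀ : ContDiff ℝ ∞ φ₀)
    (hbad : BadAt (fun x => Matrix.diagonal fun _ => Real.exp (2 * φ₀ x)) 0)

include hφ₀ hbad in
/-- a small perturbation with a bad point near a boundary point of `F` -/
theorem exists_near (hF : IsClosed F) (g : Met F) {q : E2} (hq : q ∈ frontier F) {ρ : ℝ}
    (hρ : 0 < ρ) (m : ℕ) {ε : ℝ} (hε : 0 < ε) : ∃ g' : Met F,
      (∀ j ≤ m, ∀ (i k : Fin 2) (x : E2), ‖jet F g' j i k x - jet F g j i k x‖ ≤ ε) ∧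
      ∃ p ∈ ball q ρ, BadAt g'.1 p := by
  obtain ⟨z, hz, hz'⟩ := exists_tangent hF hq hρ
  obtain ⟨r₀, hr₀, h1⟩ := flatten g.2.1 (flat_of_curvature isOpen_univ g.2.1 (mem_univ z)
    (m := m) fun j _ => g.2.2 z hz j) (half_pos hε)
  obtain ⟨p, r, hr, hrr, hpz, hdis, hpq⟩ := hz' r₀ hr₀
  obtain ⟨g₁, a1, a2, a3, a4⟩ := h1 p r hr hrr hpz
  obtain ⟨s, hs, -, h2⟩ := local_main hφ₀ hbad isOpen_univ a1 (mem_univ p) a4 isOpen_ball
    (mem_ball_self hr) (half_pos hε)
  obtain ⟨g₂, b1, b2, b3, b4⟩ := h2 {p} (singleton_subset_iff.2 (mem_closedBall_self hs.le))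
    isClosed_singleton (interior_singleton p)
  refine ⟨⟨g₂, b1, fun y hy j => ?_⟩, fun j hj i k x => ?_, p, hpq, b4 p (mem_singleton p)⟩
  · have h3 : g₂ =ᶠ[𝓝 y] g.1 := by
      filter_upwards [isClosed_closedBall.isOpen_compl.mem_nhds
        fun h => Set.disjoint_left.1 hdis h hy] with x hx
      have hx' : x ∉ ball p r := fun h => hx (ball_subset_closedBall h)
      rw [b2 x hx', a2 x hx']
    rw [((curvature_congr h3).iteratedFDeriv ℝ j).eq_of_nhds]
    exact g.2.2 y hy j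
  · have h3 : ∀ {u v : E2 → Matrix (Fin 2) (Fin 2) ℝ}, IsMetricOn ∞ u univ → IsMetricOn ∞ v univ →
        iteratedFDeriv ℝ j (fun y => u y i k - v y i k) x =
          iteratedFDeriv ℝ j (fun y => u y i k) x - iteratedFDeriv ℝ j (fun y => v y i k) x :=
      fun hu hv => iteratedFDeriv_sub_apply (i := j) (x := x)
        ((sm (co hu i k)).of_le (by exact_mod_cast le_top)).contDiffAt
        ((sm (co hv i k)).of_le (by exact_mod_cast le_top)).contDiffAt
    have h4 := a3 j hj i k x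
    have h5 := b3 j hj i k x
    rw [h3 a1 g.2.1] at h4
    rw [h3 b1 a1] at h5
    have h6 := norm_sub_le_norm_sub_add_norm_sub (iteratedFDeriv ℝ j (fun y => g₂ y i k) x)
      (iteratedFDeriv ℝ j (fun y => g₁ y i k) x) (iteratedFDeriv ℝ j (fun y => g.1 y i k) x)
    change ‖iteratedFDeriv ℝ j (fun y => g₂ y i k) x -
      iteratedFDeriv ℝ j (fun y => g.1 y i k) x‖ ≤ ε
    linarith

include hφ₀ hbad in
theorem dense_bad (hF : IsClosed F) {q : E2} (hq : q ∈ frontier F) {ρ : ℝ} (hρ : 0 < ρ) :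
    Dense {g : Met F | ∃ p ∈ ball q ρ, BadAt g.1 p} := by
  intro g
  choose G hG1 hG2 using fun m : ℕ =>
    exists_near hφ₀ hbad hF g hq hρ m (Nat.one_div_pos_of_nat (α := ℝ) (n := m))
  refine mem_closure_of_tendsto (f := G) (b := atTop) ?_ (Eventually.of_forall hG2)
  rw [inducing_jet.tendsto_nhds_iff]
  refine tendsto_pi_nhds.2 fun j => tendsto_pi_nhds.2 fun i => tendsto_pi_nhds.2 fun k => ?_
  refine ContinuousMap.tendsto_of_tendstoLocallyUniformly
    (TendstoUniformly.tendstoLocallyUniformly (Metric.tendstoUniformly_iff.2 fun ε hε => ?_))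
  filter_upwards [eventually_ge_atTop j,
    tendsto_one_div_add_atTop_nhds_zero_nat.eventually (gt_mem_nhds hε)] with m hm hm' x
  rw [dist_comm, dist_eq_norm]
  exact (hG1 m j hm i k x).trans_lt hm'

/-- the metrics with a realization on a given disc and with given bounds -/
def Bd (F : Set E2) (q : E2) (ρ M : ℝ) : Set (Met F) :=
  {g | ∃ Φ : E2 → E3, IsIsometricImmersionOn 5 g.1 (ball q ρ) Φ ∧
    ∀ j, 1 ≤ j → j ≤ 5 → ∀ x ∈ ball q ρ, ‖iteratedFDeriv ℝ j Φ x‖ ≤ M}

theorem closure_bd {q : E2} {ρ M : ℝ} {g : Met F} (hg : g ∈ closure (Bd F q ρ M)) :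
    ∃ Φ : E2 → E3, IsIsometricImmersionOn 4 g.1 (ball q ρ) Φ := by
  obtain ⟨u, hu, hug⟩ := mem_closure_iff_ultrafilter.1 hg
  choose! f hf1 hf2 using fun (a : Met F) (ha : a ∈ Bd F q ρ M) => ha
  refine realize_lim (u := u) (M := M) (f := f) ?_ fun x hx i k => ?_
  · filter_upwards [hu] with a ha
    exact ⟨(hf1 a ha).1, hf2 a ha⟩
  · have h1 : Continuous fun a : Met F => a.1 x i k :=
      (continuous_val i k).comp (continuous_id.prodMk continuous_const)
    refine ((h1.tendsto g).mono_left hug).congr' ?_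
    filter_upwards [hu] with a ha
    exact ((hf1 a ha).2 x hx i k).symm

include hφ₀ hbad in
theorem nowhereDense_bd (hF : IsClosed F) {q : E2} (hq : q ∈ frontier F) {ρ : ℝ} (hρ : 0 < ρ)
    (M : ℝ) : IsNowhereDense (Bd F q ρ M) := by
  rw [IsNowhereDense, interior_eq_empty_iff_dense_compl]
  refine (dense_bad hφ₀ hbad hF hq hρ).mono ?_
  rintro g ⟨p, hp, hb⟩ hg
  obtain ⟨Φ, hΦ⟩ := closure_bd hg
  exact hb 4 le_rfl ⟨ball q ρ, isOpen_ball, hp, Φ, hΦ⟩

include hφ₀ hbad in
theorem meagre (hF : IsClosed F) :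
    IsMeagre {g : Met F | ∃ p ∈ frontier F, LocallyRealizableAt 5 g.1 p} := by
  obtain ⟨D, hD2, hD1, hD3⟩ :=
    (TopologicalSpace.IsSeparable.of_separableSpace (frontier F)).exists_countable_dense_subset
  refine IsMeagre.mono (s := ⋃ q ∈ D, ⋃ n : ℕ, ⋃ M : ℕ, Bd F q (1 / ((n : ℝ) + 1)) M) ?_
    (isMeagre_biUnion hD1 fun q hq => isMeagre_iUnion fun n : ℕ => isMeagre_iUnion fun M : ℕ =>
      (nowhereDense_bd hφ₀ hbad hF (hD2 hq) (Nat.one_div_pos_of_nat (n := n)) (M : ℝ)).isMeagre)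
  rintro g ⟨p, hp, U, hU, hpU, Φ, hΦ⟩
  obtain ⟨s, hs, hsU⟩ := nhds_basis_closedBall.mem_iff.1 (hU.mem_nhds hpU)
  obtain ⟨n, hn⟩ := exists_nat_one_div_lt (half_pos hs)
  obtain ⟨q, hq, hpq⟩ := Metric.mem_closure_iff.1 (hD3 hp) (s / 2) (half_pos hs)
  have hsub : ball q (1 / ((n : ℝ) + 1)) ⊆ closedBall p s := fun x hx => by
    have h1 := dist_triangle x q p
    rw [mem_ball] at hx
    rw [dist_comm] at hpq
    rw [mem_closedBall]
    linarith
  have h1 : ∀ j : Fin 6, ∃ A : ℝ, ∀ x ∈ closedBall p s, ‖iteratedFDeriv ℝ j Φ x‖ ≤ A := fun j => by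
    refine (isCompact_closedBall p s).exists_bound_of_continuousOn (ContinuousOn.mono ?_ hsU)
    refine (hΦ.1.continuousOn_iteratedFDerivWithin (m := j) ?_ hU.uniqueDiffOn).congr
      fun x hx => (iteratedFDerivWithin_of_isOpen j hU hx).symm
    exact_mod_cast Nat.le_of_lt_succ j.2
  choose A hA using h1
  obtain ⟨B, hB⟩ := (finite_range A).bddAbove
  obtain ⟨M, hM⟩ := exists_nat_ge B
  refine mem_iUnion₂.2 ⟨q, hq, mem_iUnion.2 ⟨n, mem_iUnion.2 ⟨M, Φ,
    ⟨hΦ.1.mono (hsub.trans hsU), fun x hx => hΦ.2 x (hsU (hsub hx))⟩, fun j _ hj x hx => ?_⟩⟩⟩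
  exact ((hA ⟨j, by omega⟩ x (hsub hx)).trans (hB (mem_range_self _))).trans hM

include hφ₀ hbad in
/-- **genericity** -/
theorem generic (hF : IsClosed F) : ∀ᶠ g : Met F in residual (Met F), ∀ p ∈ F,
    (p ∈ interior F → LocallyRealizableAt ∞ g.1 p) ∧
      (LocallyRealizableAt 5 g.1 p → p ∈ interior F) := by
  filter_upwards [meagre hφ₀ hbad hF] with g hg p hp
  refine ⟨fun hi => realizable_of_flat g.2.1 ?_, fun hr => ?_⟩
  · filter_upwards [mem_interior_iff_mem_nhds.1 hi] with x hx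
    have h1 := g.2.2 x hx 0
    rwa [← norm_eq_zero, norm_iteratedFDeriv_zero, norm_eq_zero] at h1
  · by_contra hi
    exact hg ⟨p, ⟨subset_closure hp, hi⟩, hr⟩

theorem nonempty_met (F : Set E2) : Nonempty (Met F) := by
  have h1 : curvature (fun _ => 1) = fun _ => 0 := funext fun x => by
    have h2 : ∀ (c : ℝ) (k : Fin 2), pd k (fun _ => c) = fun _ => 0 := fun c k => funext fun y => by
      simp [pd]
    simp [curvature, chr, h2]
  refine ⟨⟨fun _ => 1, ⟨fun i k => contDiffOn_const, fun x _ => Matrix.PosDef.one⟩,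
    fun p _ j => ?_⟩⟩
  rw [h1, iteratedFDeriv_fun_zero]
  rfl

end Vale.Agent.N229
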