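import Vale.Agent.N229.Baire

/-!
# P229: a metric with vanishing curvature is locally realizable
-/

open scoped ContDiff RealInnerProductSpace Topology
open Set Metric Filter

namespace Vale.Agent.N229

open Vale.Agent.P229 Vale.Agent.P229.H870

/-- the curvature in an orthonormal frame -/
theorem num_frame {G : Fin 2 → Fin 2 → SF} {a b c P Q : SF} (h00 : G 0 0 = a * a)
    (h01 : G 0 1 = a * b) (h10 : G 1 0 = a * b) (h11 : G 1 1 = b * b + c * c)
    (h1 : P * c = dl 0 b - dl 1 a) (h2 : Q * a = P * b + dl 0 c) :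
    num G = 4 * (a * c) ^ 3 * (dl 1 P - dl 0 Q) := by
  have h1x := congrArg (dl 0) h1
  have h1y := congrArg (dl 1) h1
  have h2x := congrArg (dl 0) h2
  simp only [map_add, map_sub, dl_mul, dl_comm 1 0] at h1x h1y h2x
  simp only [num, dt, lop, qop, gam, h00, h01, h10, h11, map_add, dl_mul]
  linear_combination (-(4 * a ^ 3 * c ^ 2)) * h1y + 4 * a ^ 2 * c ^ 3 * h2x +
    4 * a ^ 2 * c ^ 2 * b * h1x - 4 * a * c ^ 3 * dl 0 a * h2 -
    (-(4 * a ^ 3 * c * dl 1 c) + 4 * a ^ 2 * c * b * dl 0 c - 4 * a ^ 2 * c ^ 2 * dl 0 b +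
      4 * a * c ^ 2 * dl 0 a * b) * h1

/-- the Poincare lemma on a disc -/
theorem exists_prim (P Q : SF) {p : E2} {r : ℝ}
    (h : ∀ x ∈ ball p r, (dl 1 P).1 x = (dl 0 Q).1 x) :
    ∃ α : E2 → ℝ, ContDiffOn ℝ ∞ α (ball p r) ∧ ∀ x ∈ ball p r, DifferentiableAt ℝ α x ∧
      pd 0 α x = P.1 x ∧ pd 1 α x = Q.1 x := by
  let π : Fin 2 → E2 →L[ℝ] ℝ := fun i => EuclideanSpace.proj i
  let w : E2 → E2 →L[ℝ] ℝ := fun x => P.1 x • π 0 + Q.1 x • π 1
  have hw : ContDiff ℝ ∞ w := ((sm P).smul contDiff_const).add ((sm Q).smul contDiff_const)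
  obtain ⟨α, hα⟩ := (convex_ball p r).exists_forall_hasFDerivAt_of_fderiv_symmetric isOpen_ball
    (hw.differentiable (by simp)).differentiableOn (fun x hx u v => by
      have h1 : HasFDerivAt w _ x := ((dfa P x).hasFDerivAt.smul_const (π 0)).add
        ((dfa Q x).hasFDerivAt.smul_const (π 1))
      have h2 : ∀ (R : SF) (u : E2), fderiv ℝ R.1 x u = u 0 * (dl 0 R).1 x + u 1 * (dl 1 R).1 x :=
        fun R u => by
          conv_lhs => rw [expand u, map_add, map_smul, map_smul]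
          rfl
      rw [h1.fderiv]
      change fderiv ℝ P.1 x u * v 0 + fderiv ℝ Q.1 x u * v 1 =
        fderiv ℝ P.1 x v * u 0 + fderiv ℝ Q.1 x v * u 1
      rw [h2, h2, h2, h2, h x hx]
      ring)
  refine ⟨α, ?_, fun x hx => ⟨(hα x hx).differentiableAt, ?_, ?_⟩⟩
  · rw [contDiffOn_infty_iff_fderiv_of_isOpen isOpen_ball]
    exact ⟨fun x hx => (hα x hx).differentiableAt.differentiableWithinAt,
      hw.contDiffOn.congr fun x hx => (hα x hx).fderiv⟩
  · rw [pd, (hα x hx).fderiv]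
    simp [w, π]
  · rw [pd, (hα x hx).fderiv]
    simp [w, π]

/-- **a metric with vanishing curvature is locally realizable** -/
theorem realizable_of_flat {g : E2 → Matrix (Fin 2) (Fin 2) ℝ} (hg : IsMetricOn ∞ g univ) {p : E2}
    (hK : ∀ᶠ x in 𝓝 p, curvature g x = 0) : LocallyRealizableAt ∞ g p := by
  have hpos : ∀ x, 0 < g x 0 0 := fun x => (hg.posDef x (mem_univ x)).diag_pos
  have hdet : ∀ x, 0 < (dt (co hg)).1 x := fun x => by
    have h1 := (hg.posDef x (mem_univ x)).det_pos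
    rwa [Matrix.det_fin_two] at h1
  have hsym : ∀ x, g x 1 0 = g x 0 1 := fun x =>
    (hg.posDef x (mem_univ x)).isHermitian.apply 0 1
  let a : SF := ⟨fun x => √(g x 0 0), (sm (co hg 0 0)).sqrt fun x => (hpos x).ne'⟩
  have ha : ∀ x, a.1 x ≠ 0 := fun x => (Real.sqrt_pos.2 (hpos x)).ne'
  have haa : ∀ x, a.1 x * a.1 x = g x 0 0 := fun x => Real.mul_self_sqrt (hpos x).le
  let b : SF := ⟨fun x => g x 0 1 / a.1 x, (sm (co hg 0 1)).div (sm a) ha⟩
  let c : SF := ⟨fun x => √((dt (co hg)).1 x) / a.1 x,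
    ((sm (dt (co hg))).sqrt fun x => (hdet x).ne').div (sm a) ha⟩
  have hc : ∀ x, c.1 x ≠ 0 := fun x => div_ne_zero (Real.sqrt_pos.2 (hdet x)).ne' (ha x)
  have hab : ∀ x, a.1 x * b.1 x = g x 0 1 := fun x => mul_div_cancel₀ _ (ha x)
  have hbc : ∀ x, b.1 x * b.1 x + c.1 x * c.1 x = g x 1 1 := fun x => by
    have h1 : √((dt (co hg)).1 x) * √((dt (co hg)).1 x) = g x 0 0 * g x 1 1 - g x 0 1 * g x 1 0 :=
      Real.mul_self_sqrt (hdet x).le
    change g x 0 1 / a.1 x * (g x 0 1 / a.1 x) +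
      √((dt (co hg)).1 x) / a.1 x * (√((dt (co hg)).1 x) / a.1 x) = _
    rw [div_mul_div_comm, div_mul_div_comm, h1, haa, hsym, ← add_div, div_eq_iff (hpos x).ne']
    ring
  let P : SF := ⟨fun x => (dl 0 b - dl 1 a).1 x / c.1 x, (sm _).div (sm c) hc⟩
  let Q : SF := ⟨fun x => (P * b + dl 0 c).1 x / a.1 x, (sm _).div (sm a) ha⟩
  have h1 : P * c = dl 0 b - dl 1 a := Subtype.ext (funext fun x => div_mul_cancel₀ _ (hc x))
  have h2 : Q * a = P * b + dl 0 c := Subtype.ext (funext fun x => div_mul_cancel₀ _ (ha x))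
  have hnum := num_frame (G := co hg) (Subtype.ext (funext fun x => (haa x).symm))
    (Subtype.ext (funext fun x => (hab x).symm))
    (Subtype.ext (funext fun x => (hsym x).trans (hab x).symm))
    (Subtype.ext (funext fun x => (hbc x).symm)) h1 h2
  obtain ⟨r, hr, hKr⟩ := Metric.eventually_nhds_iff_ball.1 hK
  obtain ⟨α, hα, hα'⟩ := exists_prim P Q (p := p) (r := r) fun x hx => by
    have h3 := hKr x hx
    have h4 := (hdet x).ne'
    rw [curvature_co hg, div_eq_zero_iff, or_iff_left (by positivity), hnum] at h3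
    change 4 * (a.1 x * c.1 x) ^ 3 * ((dl 1 P).1 x - (dl 0 Q).1 x) = 0 at h3
    have h5 := ha x
    have h6 := hc x
    exact sub_eq_zero.1 ((mul_eq_zero.1 h3).resolve_left (by positivity))
  obtain ⟨β, hβ, s, hs, hβs⟩ := exists_global isOpen_ball hα (mem_ball_self hr)
  let t := min r s
  have ht : 0 < t := lt_min hr hs
  have hβ' : ∀ x ∈ ball p t, pd 0 β x = P.1 x ∧ pd 1 β x = Q.1 x := fun x hx => by
    have h3 : β =ᶠ[𝓝 x] α := by
      filter_upwards [isOpen_ball.mem_nhds (ball_subset_ball (min_le_right r s) hx)] with y hy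
      exact hβs y hy
    rw [(pd_congr h3 0).eq_of_nhds, (pd_congr h3 1).eq_of_nhds]
    exact (hα' x (ball_subset_ball (min_le_left r s) hx)).2
  let C : SF := ⟨fun x => Real.cos (β x), hβ.cos⟩
  let S : SF := ⟨fun x => Real.sin (β x), hβ.sin⟩
  have hβd : ∀ x, DifferentiableAt ℝ β x := fun x => (hβ.differentiable (by simp)).differentiableAt
  have hC : ∀ k x, (dl k C).1 x = -S.1 x * pd k β x := fun k x => by
    change fderiv ℝ (fun x => Real.cos (β x)) x _ = _
    rw [(hβd x).hasFDerivAt.cos.fderiv]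
    rfl
  have hS : ∀ k x, (dl k S).1 x = C.1 x * pd k β x := fun k x => by
    change fderiv ℝ (fun x => Real.sin (β x)) x _ = _
    rw [(hβd x).hasFDerivAt.sin.fderiv]
    rfl
  have h1' : ∀ x, P.1 x * c.1 x = (dl 0 b).1 x - (dl 1 a).1 x := fun x =>
    congrArg (fun u : SF => u.1 x) h1
  have h2' : ∀ x, Q.1 x * a.1 x = P.1 x * b.1 x + (dl 0 c).1 x := fun x =>
    congrArg (fun u : SF => u.1 x) h2
  obtain ⟨X, hX, hX'⟩ := exists_prim (C * a) (C * b - S * c) (p := p) (r := t) fun x hx => by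
    simp only [map_sub, dl_mul]
    change (dl 1 C).1 x * a.1 x + C.1 x * (dl 1 a).1 x = (dl 0 C).1 x * b.1 x +
      C.1 x * (dl 0 b).1 x - ((dl 0 S).1 x * c.1 x + S.1 x * (dl 0 c).1 x)
    rw [hC, hC, hS, (hβ' x hx).1, (hβ' x hx).2]
    linear_combination C.1 x * h1' x - S.1 x * h2' x
  obtain ⟨Y, hY, hY'⟩ := exists_prim (S * a) (S * b + C * c) (p := p) (r := t) fun x hx => by
    simp only [map_add, dl_mul]
    change (dl 1 S).1 x * a.1 x + S.1 x * (dl 1 a).1 x = (dl 0 S).1 x * b.1 x +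
      S.1 x * (dl 0 b).1 x + ((dl 0 C).1 x * c.1 x + C.1 x * (dl 0 c).1 x)
    rw [hS, hS, hC, (hβ' x hx).1, (hβ' x hx).2]
    linear_combination S.1 x * h1' x + C.1 x * h2' x
  let f : Fin 3 → E3 := fun i => EuclideanSpace.single i 1
  refine ⟨ball p t, isOpen_ball, mem_ball_self ht, fun x => X x • f 0 + Y x • f 1,
    (hX.smul contDiffOn_const).add (hY.smul contDiffOn_const), fun x hx i k => ?_⟩
  have h3 : HasFDerivAt (fun x => X x • f 0 + Y x • f 1) _ x :=
    ((hX' x hx).1.hasFDerivAt.smul_const (f 0)).add ((hY' x hx).1.hasFDerivAt.smul_const (f 1))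
  have h4 : ∀ u v u' v' : ℝ, ⟪u • f 0 + v • f 1, u' • f 0 + v' • f 1⟫ = u * u' + v * v' :=
    fun u v u' v' => by
      simp [f, inner_add_left, inner_add_right, inner_smul_left, inner_smul_right,
        EuclideanSpace.inner_single_left]
      ring
  rw [h3.fderiv]
  change ⟪pd i X x • f 0 + pd i Y x • f 1, pd k X x • f 0 + pd k Y x • f 1⟫ = _
  rw [h4]
  have h5 : S.1 x ^ 2 + C.1 x ^ 2 = 1 := Real.sin_sq_add_cos_sq (β x)
  have e1 : pd 0 X x = C.1 x * a.1 x := (hX' x hx).2.1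
  have e2 : pd 1 X x = C.1 x * b.1 x - S.1 x * c.1 x := (hX' x hx).2.2
  have e3 : pd 0 Y x = S.1 x * a.1 x := (hY' x hx).2.1
  have e4 : pd 1 Y x = S.1 x * b.1 x + C.1 x * c.1 x := (hY' x hx).2.2
  obtain rfl | rfl : i = 0 ∨ i = 1 := by fin_cases i <;> simp
  · obtain rfl | rfl : k = 0 ∨ k = 1 := by fin_cases k <;> simp
    · rw [e1, e3, ← haa]
      linear_combination a.1 x * a.1 x * h5
    · rw [e1, e2, e3, e4, ← hab]
      linear_combination a.1 x * b.1 x * h5
  · obtain rfl | rfl : k = 0 ∨ k = 1 := by fin_cases k <;> simp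
    · rw [e1, e2, e3, e4, hsym, ← hab]
      linear_combination a.1 x * b.1 x * h5
    · rw [e2, e4, ← hbc]
      linear_combination (b.1 x * b.1 x + c.1 x * c.1 x) * h5

end Vale.Agent.N229
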