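import Mathlib

/-! # P229: the definitions used by the statement -/

open scoped ContDiff RealInnerProductSpace

namespace Vale.Agent.N229S

/-- The partial derivative `∂_k f`. -/
noncomputable def pd {V : Type} [NormedAddCommGroup V] [NormedSpace ℝ V] (k : Fin 2)
    (f : EuclideanSpace ℝ (Fin 2) → V) (x : EuclideanSpace ℝ (Fin 2)) : V :=
  fderiv ℝ f x (EuclideanSpace.single k 1)

/-- `g` is a smooth Riemannian metric on `Ω`. -/
def IsMetricOn (g : EuclideanSpace ℝ (Fin 2) → Matrix (Fin 2) (Fin 2) ℝ)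
    (Ω : Set (EuclideanSpace ℝ (Fin 2))) : Prop :=
  (∀ i j, ContDiffOn ℝ ∞ (fun x => g x i j) Ω) ∧ ∀ x ∈ Ω, (g x).PosDef

/-- Some open neighbourhood of `p` has a `C^n` isometric immersion into Euclidean three-space. -/
def RealizableAt (n : WithTop ℕ∞) (g : EuclideanSpace ℝ (Fin 2) → Matrix (Fin 2) (Fin 2) ℝ)
    (p : EuclideanSpace ℝ (Fin 2)) : Prop :=
  ∃ U, IsOpen U ∧ p ∈ U ∧ ∃ Φ : EuclideanSpace ℝ (Fin 2) → EuclideanSpace ℝ (Fin 3),
    ContDiffOn ℝ n Φ U ∧ ∀ x ∈ U, ∀ i j, ⟪pd i Φ x, pd j Φ x⟫ = g x i j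

/-- The Christoffel symbols of the first kind. -/
noncomputable def chr (g : EuclideanSpace ℝ (Fin 2) → Matrix (Fin 2) (Fin 2) ℝ) (k l j : Fin 2)
    (x : EuclideanSpace ℝ (Fin 2)) : ℝ :=
  (pd k (fun y => g y l j) x + pd l (fun y => g y k j) x - pd j (fun y => g y k l) x) / 2

/-- The Gaussian curvature `R_{0101} / det g`. -/
noncomputable def curvature (g : EuclideanSpace ℝ (Fin 2) → Matrix (Fin 2) (Fin 2) ℝ)
    (x : EuclideanSpace ℝ (Fin 2)) : ℝ :=
  (pd 0 (pd 1 fun y => g y 0 1) x - pd 0 (pd 0 fun y => g y 1 1) x / 2 -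
    pd 1 (pd 1 fun y => g y 0 0) x / 2 + ∑ a, ∑ b, (g x)⁻¹ a b *
      (chr g 0 1 a x * chr g 0 1 b x - chr g 0 0 a x * chr g 1 1 b x)) / (g x).det

/-- All derivatives of `f` vanish at `p`. -/
def FlatAt {E : Type} [NormedAddCommGroup E] [NormedSpace ℝ E] (f : E → ℝ) (p : E) : Prop :=
  ∀ j : ℕ, iteratedFDeriv ℝ j f p = 0

/-- `Φ` is `C^5` on `U`, with derivatives of the orders one to five bounded by `M`. -/
def BoundedC5 {E V : Type} [NormedAddCommGroup E] [NormedSpace ℝ E] [NormedAddCommGroup V]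
    [NormedSpace ℝ V] (Φ : E → V) (U : Set E) (M : ℝ) : Prop :=
  ContDiffOn ℝ 5 Φ U ∧ ∀ j : ℕ, 1 ≤ j → j ≤ 5 → ∀ x ∈ U, ‖iteratedFDeriv ℝ j Φ x‖ ≤ M

/-- The topology of locally uniform convergence of all derivatives of the smooth functions
`u m i k`: it is induced by the maps to the spaces of continuous maps. -/
@[reducible] noncomputable def smoothTop {X E : Type} [NormedAddCommGroup E] [NormedSpace ℝ E]
    (u : X → Fin 2 → Fin 2 → E → ℝ) (hu : ∀ m i k, ContDiff ℝ ∞ (u m i k)) : TopologicalSpace X :=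
  TopologicalSpace.induced (fun m (j : ℕ) i k => (⟨iteratedFDeriv ℝ j (u m i k),
    (hu m i k).continuous_iteratedFDeriv (WithTop.coe_le_coe.2 le_top)⟩ : C(E, E [×j]→L[ℝ] ℝ)))
    inferInstance

/-- The smooth metrics on the plane whose curvature vanishes to infinite order on `F`. -/
structure Met (F : Set (EuclideanSpace ℝ (Fin 2))) where
  g : EuclideanSpace ℝ (Fin 2) → Matrix (Fin 2) (Fin 2) ℝ
  metric : IsMetricOn g Set.univ
  flat : ∀ p ∈ F, FlatAt (curvature g) p

/-- The smooth topology of the coefficients. -/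
@[reducible] noncomputable def metTop (F : Set (EuclideanSpace ℝ (Fin 2))) :
    TopologicalSpace (Met F) :=
  smoothTop (fun m i k x => m.g x i k) fun m i k => contDiffOn_univ.1 (m.metric.1 i k)

end Vale.Agent.N229S
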