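import Vale.Agent.N229.Dense
import Vale.Agent.N229.Sta
import Vale.Agent.P229.H832.Main

/-! # P229: assembly -/

open scoped ContDiff RealInnerProductSpace
open Metric

namespace Vale.Agent.N229S

attribute [local instance] metTop N229.top

/-- the two descriptions of the space of metrics -/
noncomputable def homeo (F : Set (EuclideanSpace ℝ (Fin 2))) : Met F ≃ₜ N229.Met F :=
  Equiv.toHomeomorphOfIsInducing
    ⟨fun m => ⟨m.g, ⟨m.metric.1, m.metric.2⟩, m.flat⟩,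
      fun g => ⟨g.1, ⟨g.2.1.1, g.2.1.2⟩, g.2.2⟩, fun _ => rfl, fun _ => rfl⟩
    ⟨by rw [N229.top, induced_compose]; rfl⟩

theorem main :
    (¬ ∀ (Ω : Set (EuclideanSpace ℝ (Fin 2)))
      (g : EuclideanSpace ℝ (Fin 2) → Matrix (Fin 2) (Fin 2) ℝ), IsOpen Ω → IsMetricOn g Ω →
      ∀ p ∈ Ω, RealizableAt ∞ g p) ∧
    (∃ g : EuclideanSpace ℝ (Fin 2) → Matrix (Fin 2) (Fin 2) ℝ, IsMetricOn g Set.univ ∧
      (∀ n : WithTop ℕ∞, 4 ≤ n → ¬ RealizableAt n g 0) ∧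
      ∀ U : Set (EuclideanSpace ℝ (Fin 2)), IsOpen U → 0 ∈ U → ∀ M : ℝ, ∃ η : ℝ, 0 < η ∧
        ∀ Φ : EuclideanSpace ℝ (Fin 2) → EuclideanSpace ℝ (Fin 3), BoundedC5 Φ U M →
          ∃ x ∈ U, ∃ i k, η < |⟪pd i Φ x, pd k Φ x⟫ - g x i k|) ∧
    (∀ F : Set (EuclideanSpace ℝ (Fin 2)), IsClosed F → Nonempty (Met F) ∧
      @TopologicalSpace.IsCompletelyMetrizableSpace (Met F) (metTop F) ∧
      ∀ᶠ m in @residual (Met F) (metTop F), ∀ p ∈ F, ∀ n : WithTop ℕ∞, 5 ≤ n → n ≤ ∞ →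
        (RealizableAt n m.g p ↔ p ∈ interior F)) := by
  obtain ⟨g, hg, hno⟩ := Vale.Agent.P229.D.main
  obtain ⟨φ, hφ, hbad⟩ := P229.H832.exists_bad
  refine ⟨fun h => hno ∞ (WithTop.coe_le_coe.2 (le_top : (4 : ℕ∞) ≤ ⊤))
    (h Set.univ g isOpen_univ ⟨hg.1, hg.2⟩ 0 (Set.mem_univ _)),
    ⟨g, ⟨hg.1, hg.2⟩, hno, fun U hU h0 M => ?_⟩,
    fun F hF => ⟨(N229.nonempty_met F).map (homeo F).symm, ?_, ?_⟩⟩
  · obtain ⟨ρ, hρ, hρU⟩ := Metric.isOpen_iff.1 hU 0 h0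
    obtain ⟨η, hη, h⟩ := N229.robust (hno 4 le_rfl) hρ M
    refine ⟨η, hη, fun Φ hΦ => ?_⟩
    obtain ⟨x, hx, h1⟩ := h Φ (hΦ.1.mono hρU) fun j h1 h5 x hx => hΦ.2 j h1 h5 x (hρU hx)
    exact ⟨x, hρU hx, h1⟩
  · have := N229.complete (F := F)
    exact (homeo F).isClosedEmbedding.IsCompletelyMetrizableSpace
  · have h1 := N229.generic hφ hbad hF
    rw [← (homeo F).residual_map_eq, Filter.eventually_map] at h1
    filter_upwards [h1] with a ha p hp n h5 hn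
    refine ⟨fun ⟨U, hU, hpU, Φ, h1, h2⟩ => (ha p hp).2 ⟨U, hU, hpU, Φ, h1.of_le h5, h2⟩,
      fun hi => ?_⟩
    obtain ⟨U, hU, hpU, Φ, h1, h2⟩ := (ha p hp).1 hi
    exact ⟨U, hU, hpU, Φ, h1.of_le hn, h2⟩

end Vale.Agent.N229S
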